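import Crest.Agent.N250.Tb.T2
import Crest.Agent.N250.FV.Ch
import Crest.Agent.N250.Gc.Img
import Crest.Agent.N250.R.One
import Crest.Agent.N250.Rm.Br
import Crest.Agent.N250.Nq.Defs
import Crest.Agent.N250.Gc.Var
import Crest.Agent.N250.Fm.En
import Crest.Agent.N250.Wr.Cut
import Crest.Agent.N250.Ro.Rot
import Crest.Agent.N250.Fm.Act
import Crest.Agent.N250.B1.Sm4

-- ▼ part N250/Cn/Tube
section

/-!
# Row 250 (helper52): the tube of a transversal field, ambient constraint functions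
-/

set_option autoImplicit false
open MeasureTheory Set Filter Topology Function Metric
open scoped ContDiff InnerProductSpace
open Crest.GeometryTopology.MCF

noncomputable section

namespace Crest.Agent.N250.Cn

variable {S : Mv} {t : ℝ} {Z : ST → E} {y : E}

/-- `(y, s) ↦ y + s Z(y)` -/
def tm (Z : ST → E) (t : ℝ) (q : ST) : E := q.1 + q.2 • Z (q.1, t)

theorem loc (hS : S.Reg) (hZ : S.Sm Z) (hy : y ∈ S.sl t) (hn : ⟪S.n (y, t), Z (y, t)⟫_ℝ ≠ 0) :
    ∃ O : Set ST, IsOpen O ∧ (y, 0) ∈ O ∧ InjOn (tm Z t) (O ∩ {q | q.1 ∈ S.sl t}) ∧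
      ∀ q ∈ O, q.1 ∈ S.sl t → ∃ k : E → ST, ContDiffAt ℝ ∞ k (tm Z t q) ∧ k (tm Z t q) = q ∧
        ∀ᶠ w in 𝓝 (tm Z t q), (k w).1 ∈ S.sl t ∧ tm Z t (k w) = w := by
  obtain ⟨W, f, -, hW, hyW, hf, -, hmem, -, -, hker⟩ := Tb.exists_sl hS hy
  obtain ⟨U, Y, hU, hyU, hY, hZY⟩ := hS.exists_ext hZ (p := (y, t)) hy
  have hι : ContDiff ℝ ∞ fun w : E => ((w, t) : ST) := contDiff_id.prodMk contDiff_const
  have hU' : IsOpen {w : E | (w, t) ∈ U} := hU.preimage hι.continuous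
  have hN : ContDiffOn ℝ ∞ (fun w : E => Y (w, t)) {w | (w, t) ∈ U} :=
    hY.comp hι.contDiffOn fun _ h => h
  let g : ST → ST := fun q => (q.1 + q.2 • Y (q.1, t), f q.1)
  let O : Set ST := {q | q.1 ∈ W ∧ (q.1, t) ∈ U}
  have hO : IsOpen O := (hW.inter hU').preimage continuous_fst
  have hg : ContDiffOn ℝ ∞ g O :=
    (contDiffOn_fst.add (contDiffOn_snd.smul (hN.comp contDiffOn_fst fun _ h => h.2))).prodMk
      (hf.comp contDiffOn_fst fun _ h => h.1)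
  have dN := ((hN.contDiffAt (hU'.mem_nhds hyU)).differentiableAt (by simp)).hasFDerivAt
  have df := ((hf.contDiffAt (hW.mem_nhds hyW)).differentiableAt (by simp)).hasFDerivAt
  have hi : Injective (fderiv ℝ g (y, 0)) := by
    have d1 : HasFDerivAt (Prod.fst : ST → E) (ContinuousLinearMap.fst ℝ E ℝ) (y, 0) :=
      hasFDerivAt_fst
    have d2 : HasFDerivAt (Prod.snd : ST → ℝ) (ContinuousLinearMap.snd ℝ E ℝ) (y, 0) :=
      hasFDerivAt_snd
    have d := (d1.add (d2.smul (HasFDerivAt.comp (y, 0) dN d1))).prodMk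
      (HasFDerivAt.comp (y, 0) df d1)
    rw [show fderiv ℝ g (y, 0) = _ from d.fderiv, injective_iff_map_eq_zero]
    rintro ⟨v, σ⟩ h
    have h1 : v + σ • Y (y, t) = 0 := by simpa using congrArg Prod.fst h
    have h2 : fderiv ℝ f y v = 0 := by simpa using congrArg Prod.snd h
    have h3 := hker y hyW hy v h2
    have h5 := congrArg (fun w => ⟪S.n (y, t), w⟫_ℝ) h1
    simp only [inner_add_right, inner_smul_right, h3, inner_zero_right, zero_add,
      ← hZY _ hyU hy] at h5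
    have h6 : σ = 0 := (mul_eq_zero.1 h5).resolve_right hn
    rw [h6, zero_smul, add_zero] at h1
    exact Prod.ext h1 h6
  obtain ⟨G, G1, G2, G3, G4⟩ := exists_localDiffeo hO hg (z := (y, 0)) ⟨hyW, hyU⟩ hi
  have e0 : ∀ q ∈ G.source, q.1 ∈ S.sl t → G q = (tm Z t q, 0) := fun q hq hM => by
    rw [G3]; exact Prod.ext (by simp [g, tm, hZY _ (G2 hq).2 hM]) ((hmem _ (G2 hq).1).1 hM)
  refine ⟨G.source, G.open_source, G1, fun q hq q' hq' e =>
    G.injOn hq.1 hq'.1 (by rw [e0 q hq.1 hq.2, e0 q' hq'.1 hq'.2, e]), fun q hq hM => ?_⟩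
  have hT : ((tm Z t q, 0) : ST) ∈ G.target := e0 q hq hM ▸ G.map_source hq
  have hκ : ContDiff ℝ ∞ fun w : E => ((w, 0) : ST) := contDiff_id.prodMk contDiff_const
  refine ⟨fun w => G.symm (w, 0), ContDiffAt.comp _ (g := G.symm)
    (G4.contDiffAt (G.open_target.mem_nhds hT)) hκ.contDiffAt, ?_, ?_⟩
  · exact (congrArg G.symm (e0 q hq hM)).symm.trans (G.left_inv hq)
  · filter_upwards [hκ.continuous.continuousAt.preimage_mem_nhds (G.open_target.mem_nhds hT)]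
      with w hw
    have a1 := G.map_target hw
    have a2 := G.right_inv hw
    have a3 : (G.symm (w, 0)).1 ∈ S.sl t :=
      (hmem _ (G2 a1).1).2 (by rw [G3] at a2; exact congrArg Prod.snd a2)
    exact ⟨a3, congrArg Prod.fst ((e0 _ a1 a3).symm.trans a2)⟩

/-- coordinates `x = pr x + sd x • Z (pr x)` on the tube of width `δ` over `B` -/
structure TZ (S : Mv) (Z : ST → E) (t : ℝ) (B : Set E) (δ : ℝ) (W : Set E) (pr : E → E)
    (sd : E → ℝ) : Prop where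
  op : IsOpen W
  spr : ContDiffOn ℝ ∞ pr W
  ssd : ContDiffOn ℝ ∞ sd W
  mem : ∀ x ∈ W, pr x ∈ S.sl t ∧ pr x ∈ B ∧ |sd x| < δ
  dec : ∀ x ∈ W, pr x + sd x • Z (pr x, t) = x
  inv : ∀ y ∈ S.sl t, y ∈ B → ∀ s, |s| < δ →
    y + s • Z (y, t) ∈ W ∧ pr (y + s • Z (y, t)) = y ∧ sd (y + s • Z (y, t)) = s

theorem cont_sl {G : Type} [NormedAddCommGroup G] [NormedSpace ℝ G] {f : ST → G} (hf : S.Sm f)
    (t : ℝ) : ContinuousOn (fun y : E => f (y, t)) (S.sl t) :=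
  (ContDiffOn.continuousOn hf).comp (by fun_prop) fun _ h => h

theorem exists_bd (hZ : S.Sm Z) (hc : IsClosed (S.sl t)) {K : Set E} (hK : IsCompact K) :
    ∃ M, 0 < M ∧ ∀ y ∈ S.sl t, y ∈ K → ‖Z (y, t)‖ ≤ M := by
  obtain ⟨M, hM⟩ := (hK.inter_left hc).exists_bound_of_continuousOn
    ((cont_sl hZ t).mono inter_subset_left)
  exact ⟨|M| + 1, by positivity, fun y a b => (hM y ⟨a, b⟩).trans (by linarith [le_abs_self M])⟩

theorem exists_TZ (hS : S.Reg) (hZ : S.Sm Z) (hn : ∀ y ∈ S.sl t, ⟪S.n (y, t), Z (y, t)⟫_ℝ ≠ 0)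
    (hc : IsClosed (S.sl t)) (R : ℝ) : ∃ δ, 0 < δ ∧ ∃ W pr sd, TZ S Z t (ball 0 R) δ W pr sd := by
  have hK : IsCompact (S.sl t ∩ closedBall (0 : E) R) := (isCompact_closedBall 0 R).inter_left hc
  choose O hO h0 hi hk using fun y : S.sl t => loc hS hZ y.2 (hn y y.2)
  obtain ⟨l, hl, hL⟩ := lebesgue_number_lemma_of_metric
    (hK.image (f := fun y : E => ((y, 0) : ST)) (by fun_prop)) hO
    (by rintro _ ⟨y, hy, rfl⟩; exact mem_iUnion.2 ⟨⟨y, hy.1⟩, h0 _⟩)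
  obtain ⟨M, hM, hb⟩ := exists_bd hZ hc (isCompact_closedBall (0 : E) R)
  have hδ : 0 < l / (2 * M + 1) := by positivity
  have hδl : l / (2 * M + 1) ≤ l := div_le_self hl.le (by linarith)
  have hδM : l / (2 * M + 1) * (2 * M + 1) = l := div_mul_cancel₀ _ (by positivity)
  generalize l / (2 * M + 1) = δ at hδ hδl hδM
  let A : Set ST := {q | q.1 ∈ S.sl t ∧ q.1 ∈ ball (0 : E) R ∧ |q.2| < δ}
  have hA : ∀ q ∈ A, ∃ i, ball ((q.1, 0) : ST) l ⊆ O i := fun q hq =>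
    hL _ ⟨q.1, ⟨hq.1, ball_subset_closedBall hq.2.1⟩, rfl⟩
  have hm : ∀ q ∈ A, ∀ x : E, dist q.1 x < l → q ∈ ball ((x, 0) : ST) l := fun q hq x hx => by
    rw [mem_ball, Prod.dist_eq, max_lt_iff, Real.dist_eq, sub_zero]
    exact ⟨hx, hq.2.2.trans_le hδl⟩
  have hs : ∀ q ∈ A, ‖q.2 • Z (q.1, t)‖ ≤ δ * M := fun q hq => by
    rw [norm_smul, Real.norm_eq_abs]
    exact mul_le_mul hq.2.2.le (hb _ hq.1 (ball_subset_closedBall hq.2.1)) (norm_nonneg _) hδ.le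
  have inj : InjOn (tm Z t) A := fun q hq q' hq' e => by
    obtain ⟨i, hi'⟩ := hA q hq
    refine hi i ⟨hi' (hm q hq _ (by simpa using hl)), hq.1⟩ ⟨hi' (hm q' hq' _ ?_), hq'.1⟩ e
    have e1 : q'.1 - q.1 = q.2 • Z (q.1, t) - q'.2 • Z (q'.1, t) := by
      rw [sub_eq_sub_iff_add_eq_add, add_comm (q.2 • _)]; exact e.symm
    rw [dist_eq_norm, e1]
    linarith [norm_sub_le (q.2 • Z (q.1, t)) (q'.2 • Z (q'.1, t)), hs q hq, hs q' hq']
  have key : ∀ x ∈ tm Z t '' A, tm Z t '' A ∈ 𝓝 x ∧ ContDiffAt ℝ ∞ (invFunOn (tm Z t) A) x := by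
    rintro _ ⟨q, hq, rfl⟩
    obtain ⟨i, hi'⟩ := hA q hq
    obtain ⟨k, k1, k2, k3⟩ := hk i q (hi' (hm q hq _ (by simpa using hl))) hq.1
    have hop : IsOpen {q : ST | q.1 ∈ ball (0 : E) R ∧ |q.2| < δ} :=
      (isOpen_ball.preimage continuous_fst).inter (isOpen_lt continuous_snd.abs continuous_const)
    have ev : ∀ᶠ w in 𝓝 (tm Z t q), w ∈ tm Z t '' A ∧ invFunOn (tm Z t) A w = k w := by
      filter_upwards [k3, k1.continuousAt.eventually_mem (hop.mem_nhds (by rw [k2]; exact hq.2))]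
        with w a b
      have c : k w ∈ A := ⟨a.1, b⟩
      exact ⟨⟨k w, c, a.2⟩, by conv_lhs => rw [← a.2]
                               exact inj.leftInvOn_invFunOn c⟩
    exact ⟨ev.mono fun _ h => h.1, k1.congr_of_eventuallyEq (ev.mono fun _ h => h.2)⟩
  refine ⟨δ, hδ, tm Z t '' A, fun x => (invFunOn (tm Z t) A x).1,
    fun x => (invFunOn (tm Z t) A x).2, isOpen_iff_mem_nhds.2 fun x hx => (key x hx).1,
    fun x hx => (key x hx).2.fst.contDiffWithinAt, fun x hx => (key x hx).2.snd.contDiffWithinAt,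
    fun x hx => invFunOn_mem hx, fun x hx => invFunOn_eq hx, fun y a b s c => ?_⟩
  have m : ((y, s) : ST) ∈ A := ⟨a, b, c⟩
  have e := inj.leftInvOn_invFunOn m
  exact ⟨⟨_, m, rfl⟩, congrArg Prod.fst e, congrArg Prod.snd e⟩

theorem TZ.exists_amb {B W K : Set E} {δ η : ℝ} {pr : E → E} {sd : E → ℝ}
    (h : TZ S Z t B δ W pr sd) (hZ : S.Sm Z) (hc : IsClosed (S.sl t)) (hK : IsCompact K)
    (hKB : K ⊆ B) (hη : 0 < η) (hηδ : 2 * η < δ) {φ : ST → ℝ} (hφ : S.Sm φ)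
    (h0 : ∀ x ∈ S.sl t, x ∉ K → φ (x, t) = 0) : ∃ g : E → ℝ, ContDiff ℝ ∞ g ∧
      HasCompactSupport g ∧ tsupport g ⊆ tm Z t '' ((S.sl t ∩ K) ×ˢ closedBall 0 (2 * η)) ∧
      ∀ y ∈ S.sl t, y ∈ B → ∀ s, |s| ≤ η → g (y + s • Z (y, t)) = s * φ (y, t) := by
  let χ : ContDiffBump (0 : ℝ) := ⟨η, 2 * η, hη, by linarith⟩
  have hC : IsCompact (tm Z t '' ((S.sl t ∩ K) ×ˢ closedBall 0 (2 * η))) :=
    ((hK.inter_left hc).prod (isCompact_closedBall _ _)).image_of_continuousOn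
      (continuousOn_fst.add (continuousOn_snd.smul
        ((cont_sl hZ t).comp continuousOn_fst fun _ h => h.1.1)))
  have hCW : tm Z t '' ((S.sl t ∩ K) ×ˢ closedBall 0 (2 * η)) ⊆ W := by
    rintro _ ⟨q, hq, rfl⟩
    exact (h.inv _ hq.1.1 (hKB hq.1.2) _ (lt_of_le_of_lt (by simpa using hq.2) hηδ)).1
  have hs : support (W.indicator fun x => χ (sd x) * (sd x * φ (pr x, t))) ⊆
      tm Z t '' ((S.sl t ∩ K) ×ˢ closedBall 0 (2 * η)) := fun x hx => by
    have hW : x ∈ W := mem_of_indicator_ne_zero hx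
    rw [mem_support, indicator_of_mem hW] at hx
    refine ⟨(pr x, sd x), ⟨⟨(h.mem x hW).1, by_contra fun hn => hx ?_⟩, by_contra fun hn => hx ?_⟩,
      h.dec x hW⟩
    · rw [h0 _ (h.mem x hW).1 hn, mul_zero, mul_zero]
    · rw [χ.zero_of_le_dist (not_le.1 (mt mem_closedBall.2 hn)).le, zero_mul]
  have ht := closure_minimal hs hC.isClosed
  refine ⟨W.indicator fun x => χ (sd x) * (sd x * φ (pr x, t)),
    contDiff_iff_contDiffAt.2 fun x => ?_, hC.of_isClosed_subset (isClosed_tsupport _) ht, ht,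
    fun y a b s c => ?_⟩
  · by_cases hx : x ∈ tsupport (W.indicator fun x => χ (sd x) * (sd x * φ (pr x, t)))
    swap
    · exact contDiffAt_const.congr_of_eventuallyEq (notMem_tsupport_iff_eventuallyEq.1 hx)
    have hW := h.op.mem_nhds (hCW (ht hx))
    have h1 : ContDiffOn ℝ ∞ (fun x => χ (sd x) * (sd x * φ (pr x, t))) W :=
      (χ.contDiff.comp_contDiffOn h.ssd).mul (h.ssd.mul
        (ContDiffOn.comp hφ (h.spr.prodMk contDiffOn_const) fun x hx => (h.mem x hx).1))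
    exact (h1.contDiffAt hW).congr_of_eventuallyEq
      (eventually_of_mem hW fun x hx => indicator_of_mem hx _)
  · obtain ⟨i1, i2, i3⟩ := h.inv y a b s (by linarith)
    rw [indicator_of_mem i1, i2, i3, χ.one_of_mem_closedBall (by simpa using c), one_mul]

/-- ambient functions that are linear along `Z` -/
theorem exists_amb (hS : S.Reg) (hZ : S.Sm Z)
    (hn : ∀ y ∈ S.sl t, ⟪S.n (y, t), Z (y, t)⟫_ℝ ≠ 0) (hc : IsClosed (S.sl t)) {K : Set E}
    (hK : IsCompact K) (R : ℝ) {η : ℝ} (hη : 0 < η) : ∃ δ, 0 < δ ∧ ∀ φ : ST → ℝ, S.Sm φ →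
      (∀ x ∈ S.sl t, x ∉ K → φ (x, t) = 0) → ∃ g : E → ℝ, ContDiff ℝ ∞ g ∧
        HasCompactSupport g ∧ tsupport g ⊆ cthickening η K ∧
        ∀ y ∈ S.sl t, ‖y‖ ≤ R → ∀ s, |s| ≤ δ → g (y + s • Z (y, t)) = s * φ (y, t) := by
  obtain ⟨r, hr⟩ := hK.isBounded.subset_ball_lt R (0 : E)
  obtain ⟨δ, hδ, W, pr, sd, h⟩ := exists_TZ hS hZ hn hc r
  obtain ⟨M, hM, hb⟩ := exists_bd hZ hc hK
  have h1 : 0 < min (δ / 3) (η / (2 * M)) := by positivity
  have h2 := min_le_left (δ / 3) (η / (2 * M))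
  have h3 := (le_div_iff₀ (by positivity)).1 (min_le_right (δ / 3) (η / (2 * M)))
  refine ⟨_, h1, fun φ hφ h0 => ?_⟩
  obtain ⟨g, g1, g2, g3, g4⟩ := h.exists_amb hZ hc hK hr.2 h1 (by linarith) hφ h0
  refine ⟨g, g1, g2, g3.trans ?_, fun y a b => g4 y a (mem_ball_zero_iff.2 (b.trans_lt hr.1))⟩
  rintro _ ⟨q, hq, rfl⟩
  refine mem_cthickening_of_dist_le _ q.1 _ _ hq.1.2 ?_
  rw [tm, dist_eq_norm, add_sub_cancel_left, norm_smul]
  have := mul_le_mul (mem_closedBall_zero_iff.1 hq.2) (hb _ hq.1.1 hq.1.2) (norm_nonneg _)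
    (by positivity)
  linarith

/-- `g` is linear along `Z` with slope `φ`, on the scale `δ (1 + |y|)` -/
def Lin (S : Mv) (Z : ST → E) (t δ : ℝ) (φ : ST → ℝ) (g : E → ℝ) : Prop :=
  ∀ y ∈ S.sl t, ∀ s, |s| ≤ δ * (1 + ‖y‖) → g (y + s • Z (y, t)) = s * φ (y, t)

/-- global form, for a bounded field -/
theorem exists_lin (hS : S.Reg) (hZ : S.Sm Z)
    (hn : ∀ y ∈ S.sl t, ⟪S.n (y, t), Z (y, t)⟫_ℝ ≠ 0) (hc : IsClosed (S.sl t)) {C : ℝ}
    (hC : ∀ y ∈ S.sl t, ‖Z (y, t)‖ ≤ C) {K : Set E} (hK : IsCompact K) {η : ℝ} (hη : 0 < η) :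
    ∃ δ, 0 < δ ∧ ∀ φ : ST → ℝ, S.Sm φ → (∀ x ∈ S.sl t, x ∉ K → φ (x, t) = 0) →
      ∃ g : E → ℝ, ContDiff ℝ ∞ g ∧ HasCompactSupport g ∧ tsupport g ⊆ cthickening η K ∧
        Lin S Z t δ φ g := by
  obtain ⟨r, hr, hr'⟩ := (hK.cthickening (r := η)).isBounded.subset_ball_lt 1 (0 : E)
  obtain ⟨δ, hδ, h⟩ := exists_amb hS hZ hn hc hK (2 * r) hη
  have hC1 : 0 < |C| + 1 := by positivity
  have h1 : 0 < min (δ / (1 + 2 * r)) (1 / (4 * (|C| + 1))) := by positivity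
  have h2 := (le_div_iff₀ (by positivity)).1 (min_le_left (δ / (1 + 2 * r)) (1 / (4 * (|C| + 1))))
  have h3 := (le_div_iff₀ (by positivity)).1 (min_le_right (δ / (1 + 2 * r)) (1 / (4 * (|C| + 1))))
  refine ⟨_, h1, fun φ hφ h0 => ?_⟩
  obtain ⟨g, g1, g2, g3, g4⟩ := h φ hφ h0
  refine ⟨g, g1, g2, g3, fun y a s b => ?_⟩
  generalize min (δ / (1 + 2 * r)) (1 / (4 * (|C| + 1))) = ε at h1 h2 h3 b
  rcases le_or_gt ‖y‖ (2 * r) with c | c
  · exact g4 y a c s (by nlinarith)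
  · have k1 : ‖s • Z (y, t)‖ ≤ ε * (1 + ‖y‖) * (|C| + 1) := by
      rw [norm_smul]
      exact mul_le_mul b ((hC y a).trans (by linarith [le_abs_self C])) (norm_nonneg _)
        (by positivity)
    have k2 := norm_sub_le (y + s • Z (y, t)) (s • Z (y, t))
    rw [add_sub_cancel_right] at k2
    have k3 : ε * (1 + ‖y‖) * (|C| + 1) ≤ (1 + ‖y‖) / 4 := by nlinarith [norm_nonneg y]
    rw [h0 y a fun hy => by
        linarith [mem_ball_zero_iff.1 (hr' (self_subset_cthickening K hy))],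
      mul_zero]
    exact image_eq_zero_of_notMem_tsupport fun hy => by
      linarith [mem_ball_zero_iff.1 (hr' (g3 hy))]

end Crest.Agent.N250.Cn

end
end

-- ▼ part N250/Am/Fv
section

/-!
# Row 250 (helper13): derivatives and first variation densities of the ambient constraint functions
-/

set_option autoImplicit false
open MeasureTheory Set Filter Topology Function Metric
open scoped ContDiff InnerProductSpace
open Crest.GeometryTopology.MCF

noncomputable section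

namespace Crest.Agent.N250.Am

open Tr FV Gc

variable {S G : Mv} {Z X : ST → E} {φ u : ST → ℝ} {g : E → ℝ} {t δ : ℝ} {p : ST} {x y : E}

theorem inner_grad (g : E → ℝ) (x v : E) : ⟪gradient g x, v⟫_ℝ = fderiv ℝ g x v := by
  simp [gradient, InnerProductSpace.toDual_symm_apply]

/-- tangential derivatives only see the slice -/
theorem td_slice {V : Type} [NormedAddCommGroup V] [NormedSpace ℝ V] {f f' : ST → V} (hS : S.Reg)
    (hp : p ∈ S.M) (h1 : DifferentiableWithinAt ℝ f S.M p) (h2 : DifferentiableWithinAt ℝ f' S.M p)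
    (he : ∀ᶠ x in 𝓝 p.1, x ∈ S.sl p.2 → f (x, p.2) = f' (x, p.2)) (v : E) :
    S.td f p (S.PL p v, 0) = S.td f' p (S.PL p v, 0) := by
  obtain ⟨Y, U, W, L, hW, c⟩ := exists_ch hS hp
  have hq := c.inU p hp hW
  have e : Ps Y (L p.1, p.2) = p := Prod.ext (c.right p hp hW) rfl
  have k := fun (f : ST → V) (h : DifferentiableWithinAt ℝ f S.M p) =>
    HasFDerivAt.comp (L p.1) (f := fun z : E2 => (z, p.2)) (c.hasF hq (e.symm ▸ h))
      (hasFDerivAt_prodMk_left (L p.1) p.2)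
  have hc : Tendsto (fun z => Y (z, p.2)) (𝓝 (L p.1)) (𝓝 p.1) := by
    have := (c.hasX hq).continuousAt.tendsto.comp ((Continuous.prodMk_left p.2).tendsto (L p.1))
    rwa [c.right p hp hW] at this
  have := (k f h1).unique ((k f' h2).congr_of_eventuallyEq (by
    filter_upwards [hc.eventually he, (c.oUt p.2).mem_nhds hq] with z a b using a (c.mem _ b)))
  have e2 := congrArg (fun T : E2 →L[ℝ] V => T (La Y (L p.1, p.2) v)) this
  have e3 := c.Jz_La hS hq v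
  rw [e] at e2 e3
  rw [← e3]
  exact e2

theorem D_slice {f f' : ST → ℝ} (hS : S.Reg) (hp : p ∈ S.M) (h1 : S.Sm f) (h2 : S.Sm f')
    (he : ∀ᶠ x in 𝓝 p.1, x ∈ S.sl p.2 → f (x, p.2) = f' (x, p.2)) (a : Fin 3) :
    S.D a f p = S.D a f' p :=
  td_slice hS hp ((h1 p hp).differentiableWithinAt (by simp))
    ((h2 p hp).differentiableWithinAt (by simp)) he _

/-- chain rule -/
theorem D_comp (hS : S.Reg) (hp : p ∈ S.M) (hX : S.Sm X) (hg : DifferentiableAt ℝ g (X p))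
    (a : Fin 3) : S.D a (fun q => g (X q)) p = dot (S.JX X p a) fun c => gradient g (X p) c := by
  have h1 := ((hX p hp).differentiableWithinAt (by simp)).hasFDerivWithinAt
  rw [D_def, td_eq (f := fun q => g (X q)) (hg.hasFDerivAt.comp_hasFDerivWithinAt p h1)
    (PL_mem hS hp _),
    ContinuousLinearMap.comp_apply, ← inner_grad, inner_eq_dot, dot_comm]
  congr 1
  exact funext fun c => (hS.JX_eq hX hp a c).symm

/-- the normal component of the gradient from the derivative along `V` and along the image -/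
theorem grad_NX (hS : S.Reg) (hp : p ∈ S.M) (hX : S.Sm X) (hg : DifferentiableAt ℝ g (X p))
    (V : E) : ⟪gradient g (X p), S.NX X p⟫_ℝ * ⟪S.NX X p, V⟫_ℝ =
      S.sX X p ^ 2 * ⟪gradient g (X p), V⟫_ℝ -
        ∑ a, dot (S.WX X p a) (fun c => V c) * S.D a (fun q => g (X q)) p := by
  have e := (hS.fr hp X).dec' fun c => V c
  have e0 := e 0
  have e1 := e 1
  have e2 := e 2
  simp only [D_comp hS hp hX hg, Mv.sX_sq, inner_eq_dot, Mv.NX_apply, Mv.WX]
  generalize G2 (fun a => S.nu a p) (S.JX X p) = A at *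
  simp only [dot, Fin.sum_univ_three] at e0 e1 e2 ⊢
  linear_combination -(gradient g (X p) 0 * e0 + gradient g (X p) 1 * e1 + gradient g (X p) 2 * e2)

theorem lin_zero (h : Cn.Lin S Z t δ φ g) (hδ : 0 ≤ δ) (hy : y ∈ S.sl t) : g y = 0 := by
  simpa using h y hy 0 (by rw [abs_zero]; positivity)

/-- derivative along the fibres -/
theorem grad_Z (h : Cn.Lin S Z t δ φ g) (hg : Differentiable ℝ g) (hy : y ∈ S.sl t) {s : ℝ}
    (hs : |s| < δ * (1 + ‖y‖)) : ⟪gradient g (y + s • Z (y, t)), Z (y, t)⟫_ℝ = φ (y, t) := by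
  have d1 : HasDerivAt (fun s : ℝ => y + s • Z (y, t)) (Z (y, t)) s := by
    simpa using ((hasDerivAt_id s).smul_const (Z (y, t))).const_add y
  have d2 : HasDerivAt (fun s : ℝ => s * φ (y, t)) (φ (y, t)) s := by
    simpa using (hasDerivAt_id s).mul_const (φ (y, t))
  rw [inner_grad]
  refine ((hg _).hasFDerivAt.comp_hasDerivAt s d1).unique (d2.congr_of_eventuallyEq ?_)
  filter_upwards [continuous_abs.continuousAt.eventually (gt_mem_nhds hs)] with r hr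
  exact h y hy r hr.le

/-- graphs along `Z`: values -/
theorem val_graph (h : Cn.Lin S Z t δ φ g) (hu : S.Sm u) (hy : y ∈ S.sl t)
    (hs : |u (y, t)| < δ * (1 + ‖y‖))
    (he : ∀ᶠ x in 𝓝 y, x ∈ S.sl t → X (x, t) = x + u (x, t) • Z (x, t)) :
    ∀ᶠ x in 𝓝 y, x ∈ S.sl t → g (X (x, t)) = u (x, t) * φ (x, t) := by
  have hc : ContinuousWithinAt (fun x => δ * (1 + ‖x‖) - |u (x, t)|) (S.sl t) y :=
    (by fun_prop : Continuous fun x : E => δ * (1 + ‖x‖)).continuousWithinAt.sub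
      ((hu.continuousOn.comp (Continuous.prodMk_left t).continuousOn fun _ h => h) y hy).abs
  filter_upwards [he, eventually_nhdsWithin_iff.1 (hc.eventually (lt_mem_nhds (sub_pos.2 hs)))]
    with x a b hx
  rw [a hx, h x hx _ (sub_pos.1 (b hx)).le]


/-- on `S` itself the gradient is `φ n` -/
theorem grad_n (hS : S.Reg) (h : Cn.Lin S Z t δ φ g) (hδ : 0 < δ) (hg : Differentiable ℝ g)
    (hy : y ∈ S.sl t) : ⟪gradient g y, S.n (y, t)⟫_ℝ * ⟪S.n (y, t), Z (y, t)⟫_ℝ = φ (y, t) := by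
  have d : HasFDerivAt (fun q : ST => g q.1) ((fderiv ℝ g y).comp (ContinuousLinearMap.fst ..))
      (y, t) := HasFDerivAt.comp (y, t) (hg y).hasFDerivAt hasFDerivAt_fst
  have e := td_slice (f' := fun _ => (0 : ℝ)) hS (p := (y, t)) hy
    d.differentiableAt.differentiableWithinAt (differentiableWithinAt_const _)
    (.of_forall fun x hx => lin_zero h hδ.le hx) (Z (y, t))
  rw [td_eq d.hasFDerivWithinAt (PL_mem hS hy _),
    td_eq (hasFDerivWithinAt_const _ _ _) (PL_mem hS hy _)] at e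
  have e1 : ⟪gradient g y, S.PL (y, t) (Z (y, t))⟫_ℝ = 0 := by rw [inner_grad]; exact e
  have e2 := grad_Z h hg hy (s := 0) (by rw [abs_zero]; positivity)
  rw [zero_smul, add_zero] at e2
  rw [Mv.PL, inner_sub_right, inner_smul_right, e2] at e1
  linarith

theorem gau_hasF (x : E) : HasFDerivAt (gau 0 1) ((-gau 0 1 x / 2) • innerSL ℝ x) x := by
  have e : gau 0 1 = fun y : E => (4 * Real.pi)⁻¹ * Real.exp (-1 / 4 * ‖y‖ ^ 2) := by
    funext y
    rw [gau, sub_zero, mul_one]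
    congr 2
    ring
  rw [e]
  refine (((hasStrictFDerivAt_norm_sq x).hasFDerivAt.const_mul (-1 / 4 : ℝ)).exp.const_mul
    (4 * Real.pi)⁻¹).congr_fderiv ?_
  ext v
  simp
  ring

theorem contDiff_gau : ContDiff ℝ ∞ (gau 0 1) :=
  contDiff_const.mul (((contDiff_norm_sq ℝ).comp (contDiff_id.sub contDiff_const)).neg.div_const
    _).exp

/-- gradient of `gau * g` -/
theorem grad_gau_mul (hg : DifferentiableAt ℝ g x) (v : E) :
    ⟪gradient (fun y => gau 0 1 y * g y) x, v⟫_ℝ =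
      gau 0 1 x * (⟪gradient g x, v⟫_ℝ - g x * ⟪x, v⟫_ℝ / 2) := by
  have d : HasFDerivAt (fun y => gau 0 1 y * g y) _ x := (gau_hasF x).mul hg.hasFDerivAt
  rw [inner_grad, inner_grad, d.fderiv]
  simp
  ring

/-- first variation density of `gau * g` on any surface -/
theorem fv_gau (hg : DifferentiableAt ℝ g p.1) : G.fv (fun y => gau 0 1 y * g y) p =
    gau 0 1 p.1 * (⟪gradient g p.1, G.n p⟫_ℝ + g p.1 * G.shr p) := by
  rw [Mv.fv, grad_gau_mul hg, Mv.shr, Mv.xn, sub_zero]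
  ring

/-- first variation density on `S` -/
theorem fv_lin (hS : S.Reg) (h : Cn.Lin S Z t δ φ g) (hδ : 0 < δ) (hg : Differentiable ℝ g)
    (hy : y ∈ S.sl t) (hn : ⟪S.n (y, t), Z (y, t)⟫_ℝ = 1) :
    S.fv (fun y => gau 0 1 y * g y) (y, t) = gau 0 1 y * φ (y, t) := by
  have e := grad_n hS h hδ hg hy
  rw [hn, mul_one] at e
  rw [fv_gau (hg _), e, lin_zero h hδ.le hy, zero_mul, add_zero]

/-- the right hand side of `Fm.Dat.Sol.el` for `f = gau * g` -/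
theorem el_term (hg : DifferentiableAt ℝ g (X p)) :
    S.sX X p ^ 2 * ⟪gradient (fun y => gau 0 1 y * g y) (X p), S.NX X p⟫_ℝ +
        S.HX X p * (gau 0 1 (X p) * g (X p)) =
      gau 0 1 (X p) * (S.sX X p ^ 2 * ⟪gradient g (X p), S.NX X p⟫_ℝ + g (X p) * S.ELX X p / 2) := by
  have e : S.ELX X p = 2 * S.HX X p - ⟪X p, S.NX X p⟫_ℝ * S.sX X p ^ 2 := by
    rw [Mv.sX_sq, inner_eq_dot]; rfl
  rw [grad_gau_mul hg, e]
  ring

/-- `Fm.Dat.Sol.el` from the core equation, cleared of denominators -/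
theorem el_of_eq {κ : Type} [Fintype κ] {g : κ → E → ℝ} {φ : κ → ST → ℝ} {c : κ → ℝ} {V : E}
    (hS : S.Reg) (hp : p ∈ S.M) (hX : S.Sm X) (hu : S.Sm u) (hφ : ∀ i, S.Sm (φ i))
    (hg : ∀ i, ContDiff ℝ ∞ (g i))
    (h1 : ∀ i, ∀ᶠ x in 𝓝 p.1, x ∈ S.sl p.2 → g i (X (x, p.2)) = u (x, p.2) * φ i (x, p.2))
    (h2 : ∀ i, ⟪gradient (g i) (X p), V⟫_ℝ = φ i p) (hN : ⟪S.NX X p, V⟫_ℝ ≠ 0)
    (hE : S.ELX X p * ⟪S.NX X p, V⟫_ℝ * (1 - u p * ∑ i, c i * φ i p) =
      2 * S.sX X p ^ 2 * (S.sX X p ^ 2 * ∑ i, c i * φ i p -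
        ∑ a, dot (S.WX X p a) (fun c => V c) * ∑ i, c i * S.D a (fun q => u q * φ i q) p)) :
    gau 0 1 (X p) * S.ELX X p / 2 =
      ∑ i, c i * (S.sX X p ^ 2 * ⟪gradient (fun y => gau 0 1 y * g i y) (X p), S.NX X p⟫_ℝ +
        S.HX X p * (gau 0 1 (X p) * g i (X p))) := by
  have hd := fun i => (hg i).differentiable (by simp) (X p)
  have e : ∀ i, ⟪gradient (g i) (X p), S.NX X p⟫_ℝ * ⟪S.NX X p, V⟫_ℝ = S.sX X p ^ 2 * φ i p -
      ∑ a, dot (S.WX X p a) (fun c => V c) * S.D a (fun q => u q * φ i q) p := fun i => by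
    rw [grad_NX hS hp hX (hd i), h2]
    congr 1
    refine Finset.sum_congr rfl fun a _ => ?_
    exact congrArg _ (D_slice hS hp ((hg i).comp_contDiffOn hX) (hu.mul (hφ i)) (h1 i) a)
  have e1 : ∀ i, g i (X p) = u p * φ i p := fun i => (h1 i).self_of_nhds hp
  refine mul_right_cancel₀ hN ?_
  have e2 : ∀ i, c i * (S.sX X p ^ 2 * ⟪gradient (fun y => gau 0 1 y * g i y) (X p), S.NX X p⟫_ℝ +
      S.HX X p * (gau 0 1 (X p) * g i (X p))) * ⟪S.NX X p, V⟫_ℝ =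
      gau 0 1 (X p) * (S.sX X p ^ 2 * S.sX X p ^ 2 + u p * S.ELX X p / 2 * ⟪S.NX X p, V⟫_ℝ) *
        (c i * φ i p) - gau 0 1 (X p) * S.sX X p ^ 2 * ∑ a, dot (S.WX X p a) (fun c => V c) *
          (c i * S.D a (fun q => u q * φ i q) p) := fun i => by
    rw [el_term (hd i), e1]
    have := e i
    simp only [Fin.sum_univ_three] at this ⊢
    linear_combination c i * gau 0 1 (X p) * S.sX X p ^ 2 * this
  rw [Finset.sum_mul, Finset.sum_congr rfl fun i _ => e2 i, Finset.sum_sub_distrib,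
    ← Finset.mul_sum, ← Finset.mul_sum, Finset.sum_comm]
  simp only [← Finset.mul_sum]
  linear_combination gau 0 1 (X p) / 2 * hE

end Crest.Agent.N250.Am

end
end

-- ▼ part N250/Rp/Abs

/-!
# Row 250 (helper55): a real solution of the core equation in the form of `Fm.Dat.Sol`
-/

set_option autoImplicit false
set_option linter.unusedSectionVars false
open MeasureTheory Set Filter Topology
open scoped ContDiff InnerProductSpace
open Crest.GeometryTopology.MCF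

noncomputable section

namespace Crest.Agent.N250.Rp

open Wr Rm Nq Gc Po

variable {S : Mv} {P : Prm S} {J κ : Type} (D : Dt P.geo J κ)

/-- the transversal field -/
def Zr (q : ST) : E := WithLp.toLp 2 fun c => lf P (D.Z c) q

theorem Zr_apply (p : S.sl 0) (t : ℝ) (c : Fin 3) : Zr D (p, t) c = (D.Z c).1 p := lf_apply _ p t

theorem inner_cast (v w : E) :
    ((⟪v, w⟫_ℝ : ℝ) : ℂ) = dot (fun c => ((v c : ℝ) : ℂ)) fun c => ((w c : ℝ) : ℂ) := by
  rw [inner_eq_dot]; exact map_dot Complex.ofRealHom _ _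

theorem ev_sl {q : S.sl 0 → Prop} {p : S.sl 0} (h : ∀ᶠ x in 𝓝 p, q x) :
    ∀ᶠ x in 𝓝 (p : E), ∀ hx : x ∈ S.sl 0, q ⟨x, hx⟩ := by
  rw [nhds_subtype_eq_comap, eventually_comap] at h
  exact h.mono fun x hx k => hx ⟨x, k⟩ rfl

variable [Fintype J] [Fintype κ] {u : P.geo.SmC} {T : Mt J} {c : κ → ℂ}

theorem mv_apply (T : Mt J) (w : Fin 3 → P.geo.R) (c : Fin 3) (p : S.sl 0) :
    (D.mv T w c).1 p = ∑ j, ∑ d, T j c d * (((D.χ j).1 p * (w d).1 p : ℝ) : ℂ) := by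
  change Cj.ev P.geo p _ = _
  simp only [Dt.mv, map_sum]
  rfl

theorem Xh_apply (u : P.geo.SmC) (T : Mt J) (c : Fin 3) (p : S.sl 0) :
    (D.Xh u T c).1 p = ((p : E) c : ℂ) + ((D.yy T c).1 p + u.1 p * (D.VV T c).1 p) := rfl

theorem VV_apply (T : Mt J) (c : Fin 3) (p : S.sl 0) :
    (D.VV T c).1 p = ((D.Z c).1 p : ℂ) + (D.mv T D.Z c).1 p := rfl

theorem ph_apply (c : κ → ℂ) (p : S.sl 0) : (D.ph c).1 p = ∑ i, c i * ((D.φ i).1 p : ℂ) := by
  change Cj.ev P.geo p _ = _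
  simp only [Dt.ph, map_sum]
  rfl

section Real

variable (hT : ∀ j c d, (T j c d).im = 0)
include hT

theorem re_mv (w : Fin 3 → P.geo.R) (c : Fin 3) : Re P (D.mv T w c) :=
  Re.sum _ fun _ => Re.sum _ fun _ => (re_oR _).smul (hT _ _ _)

theorem re_VV (c : Fin 3) : Re P (D.VV T c) := (re_oR _).add (re_mv D hT _ c)

theorem re_Xh (hu : Re P u) (c : Fin 3) : Re P (D.Xh u T c) :=
  (re_oR _).add ((re_mv D hT _ c).add (hu.mul (re_VV D hT c)))

end Real

/-- off the rotation zones the map is a graph along `Z` -/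
theorem graph_of {p : S.sl 0} (h : ∀ j, (D.χ j).1 p = 0) (t : ℝ) :
    rX P (D.Xh u T) (p, t) = p + rf P u (p, t) • Zr D (p, t) ∧ rX P (D.VV T) (p, t) = Zr D (p, t) := by
  constructor <;> ext c <;>
    simp [rX_apply, Xh_apply, VV_apply, Dt.yy, mv_apply, h, rf_apply, Zr_apply]

/-- the constraint functions see the graph function -/
structure Sees (D : Dt P.geo J κ) (u : P.geo.SmC) (T : Mt J) (g : κ → E → ℝ) (p : S.sl 0) : Prop where
  val : ∀ i, ∀ᶠ x in 𝓝 (p : E), x ∈ S.sl 0 →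
    g i (rX P (D.Xh u T) (x, 0)) = rf P u (x, 0) * lf P (D.φ i) (x, 0)
  grad : ∀ i, ⟪gradient (g i) (rX P (D.Xh u T) (p, 0)), rX P (D.VV T) (p, 0)⟫_ℝ = lf P (D.φ i) (p, 0)

variable {D} {g : κ → E → ℝ} {p : S.sl 0} {δ : ℝ}

theorem sees_lin (hg : ∀ i, ContDiff ℝ ∞ (g i)) (hl : ∀ i, Cn.Lin S (Zr D) 0 δ (lf P (D.φ i)) (g i))
    (hs : ‖u.1 p‖ < δ * (1 + ‖(p : E)‖)) (h : ∀ j, ∀ᶠ x in 𝓝 p, (D.χ j).1 x = 0) :
    Sees D u T g p := by
  have hs' : |rf P u (p, 0)| < δ * (1 + ‖(p : E)‖) := by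
    rw [rf_apply]; exact (Complex.abs_re_le_norm _).trans_lt hs
  have h' := eventually_all.2 h
  refine ⟨fun i => Am.val_graph (hl i) (sm_rf u) p.2 hs' ?_, fun i => ?_⟩
  · exact (ev_sl h').mono fun x hx k => (graph_of D (hx k) 0).1
  · rw [(graph_of D h'.self_of_nhds 0).1, (graph_of D (u := u) h'.self_of_nhds 0).2]
    exact Am.grad_Z (hl i) ((hg i).differentiable (by simp)) p.2 hs'

theorem sees_off (h1 : ∀ i, rX P (D.Xh u T) (p, 0) ∉ tsupport (g i))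
    (h2 : ∀ i, ∀ᶠ x in 𝓝 p, (D.φ i).1 x = 0) : Sees D u T g p := by
  refine ⟨fun i => ?_, fun i => ?_⟩
  · have hc : ContinuousWithinAt (fun x : E => rX P (D.Xh u T) (x, 0)) (S.sl 0) p :=
      ((sm_rX _).continuousOn.comp (Continuous.prodMk_left 0).continuousOn fun _ h => h) p p.2
    filter_upwards [ev_sl (h2 i), eventually_nhdsWithin_iff.1
      (hc.eventually ((isClosed_tsupport _).isOpen_compl.mem_nhds (h1 i)))] with x a b hx
    rw [image_eq_zero_of_notMem_tsupport (b hx), lf_apply _ ⟨x, hx⟩, a hx, mul_zero]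
  · rw [Am.inner_grad, (notMem_tsupport_iff_eventuallyEq.1 (h1 i)).fderiv_eq, lf_apply,
      (h2 i).self_of_nhds]
    simp

theorem D_uph (hu : Re P u) (hc : ∀ i, (c i).im = 0) (a : Fin 3) (p : S.sl 0) :
    (P.geo.SC.D a (u * D.ph c)).1 p =
      (∑ i, (c i).re * S.D a (fun q => rf P u q * lf P (D.φ i) q) (p, 0) : ℝ) := by
  have e : u * D.ph c = ∑ i, c i • (u * P.geo.oR (D.φ i)) := by
    simp only [Dt.ph, Finset.mul_sum, mul_smul_comm]
  have e2 : ∀ i, S.D a (fun q => rf P u q * lf P (D.φ i) q) (p, 0) =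
      S.D a (rf P (u * P.geo.oR (D.φ i))) (p, 0) := fun i => Mv.D_congr' p.2 (fun q hq => by
    have k := mem_sl P hq
    change rf P u ((⟨q.1, k⟩ : S.sl 0), q.2) * lf P (D.φ i) ((⟨q.1, k⟩ : S.sl 0), q.2) =
      rf P _ ((⟨q.1, k⟩ : S.sl 0), q.2)
    rw [rf_apply, rf_apply, lf_apply]
    exact (Complex.re_mul_ofReal _ _).symm) a
  have e3 := congrArg (Cj.ev P.geo p) (map_sum (P.geo.DLin a)
    (fun i => c i • (u * P.geo.oR (D.φ i))) Finset.univ)
  rw [← e, map_sum] at e3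
  refine e3.trans ?_
  push_cast
  refine Finset.sum_congr rfl fun i _ => ?_
  rw [map_smul, e2, ← (hu.mul (re_oR _)).D_eq a p 0,
    show (((c i).re : ℝ) : ℂ) = c i from Complex.ext rfl (hc i).symm]
  rfl

/-- the equation -/
theorem el_of (hu : Re P u) (hT : ∀ j c d, (T j c d).im = 0) (hc : ∀ i, (c i).im = 0)
    (hg : ∀ i, ContDiff ℝ ∞ (g i)) (hs : Sees D u T g p) (hn : D.Nd u T c p)
    (he : D.EQ u T c p = 0) :
    gau 0 1 (rX P (D.Xh u T) (p, 0)) * S.ELX (rX P (D.Xh u T)) (p, 0) / 2 =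
      ∑ i, (c i).re * (S.sX (rX P (D.Xh u T)) (p, 0) ^ 2 *
        ⟪gradient (fun y => gau 0 1 y * g i y) (rX P (D.Xh u T) (p, 0)),
          S.NX (rX P (D.Xh u T)) (p, 0)⟫_ℝ +
        S.HX (rX P (D.Xh u T)) (p, 0) *
          (gau 0 1 (rX P (D.Xh u T) (p, 0)) * g i (rX P (D.Xh u T) (p, 0)))) := by
  have hX := re_Xh D hT hu
  have hV := val_eq (re_VV D hT) p 0
  have eN : (D.NZ u T).1 p = (⟪S.NX (rX P (D.Xh u T)) (p, 0), rX P (D.VV T) (p, 0)⟫_ℝ : ℝ) := by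
    rw [Dt.NZ, Cj.dot_val, hV, inner_cast]
    congr 1
    exact funext fun c => NX_eq hX p 0 c
  have eP : (D.ph c).1 p = (∑ i, (c i).re * lf P (D.φ i) (p, 0) : ℝ) := by
    rw [ph_apply]
    push_cast
    exact Finset.sum_congr rfl fun i _ => by
      rw [lf_apply]; congr 1; exact Complex.ext rfl (hc i)
  have eW : ∀ a, (dot (P.geo.SC.WX (D.Xh u T) a) (D.VV T)).1 p =
      (dot (S.WX (rX P (D.Xh u T)) (p, 0) a) fun c => rX P (D.VV T) (p, 0) c : ℝ) := fun a => by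
    rw [Cj.dot_val, hV, show Cj.val (P.geo.SC.WX (D.Xh u T) a) p = _ from
      funext fun c => WX_eq hX p 0 a c]
    exact (map_dot Complex.ofRealHom _ _).symm
  have eM : (D.Mu u T c).1 p = (P.geo.SC.GX (D.Xh u T)).1 p * (D.ph c).1 p -
      ∑ a, (dot (P.geo.SC.WX (D.Xh u T) a) (D.VV T)).1 p * (P.geo.SC.D a (u * D.ph c)).1 p := by
    rw [← Cj.ev_apply]
    simp only [Dt.Mu, map_sub, map_mul, map_sum]
    rfl
  have k : (P.geo.SC.ELX (D.Xh u T)).1 p * (D.NZ u T).1 p * (1 - u.1 p * (D.ph c).1 p) =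
      2 * (P.geo.SC.GX (D.Xh u T)).1 p * (D.Mu u T c).1 p := by
    have h1 := hn.GX
    have h2 := hn.NZ
    have h3 := hn.d3
    rw [Dt.EQ, sub_eq_zero, div_eq_div_iff (mul_ne_zero (mul_ne_zero two_ne_zero h1) h2)
      (mul_ne_zero (pow_ne_zero 2 h2) h3)] at he
    refine mul_right_cancel₀ h2 ?_
    linear_combination he
  refine Am.el_of_eq (p := (p, 0)) (c := fun i => (c i).re) P.shr.reg p.2 (sm_rX _) (sm_rf u)
    (fun i => sm_lf (D.φ i)) hg hs.val hs.grad (fun h0 => hn.NZ (by rw [eN, h0]; rfl)) ?_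
  simp only [eM, eN, eP, eW, D_uph hu hc, ELX_eq hX p 0, GX_eq hX p 0, hu.eq p 0] at k
  exact_mod_cast k

/-! ### integrals -/

section Int

variable {Y : Fin 3 → P.geo.SmC} (hY : ∀ c, Re P (Y c)) {w : P.geo.SmC} {z : E → ℝ}
  (hw : ∀ p : S.sl 0, w.1 p = z p)
include hY hw

theorem lag_eq (p : S.sl 0) : P.geo.lagC w Y p =
    (4 * Real.pi * (z p * (gau 0 1 (rX P Y (p, 0)) * S.sX (rX P Y) (p, 0))) : ℝ) := by
  rw [WS.Geo.lagC, exp_eq hY p 0, Complex.sqrt, ← one_div, sqrt_GX hY p 0, hw]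
  push_cast
  ring

theorem act_eq : P.geo.actC w Y =
    (4 * Real.pi * ∫ x, z x * (gau 0 1 (rX P Y (x, 0)) * S.sX (rX P Y) (x, 0)) ∂S.mu 0 : ℝ) := by
  rw [← integral_const_mul]
  exact integral_eq (g := fun x => 4 * Real.pi * (z x * (gau 0 1 (rX P Y (x, 0)) *
    S.sX (rX P Y) (x, 0)))) (lag_eq hY hw)

theorem act_lint (h0 : ∀ x, 0 ≤ z x) (hi : Integrable (P.geo.lagC w Y) P.geo.M.mu) :
    0 ≤ (P.geo.actC w Y).re ∧
    ∫⁻ x, ENNReal.ofReal (z x * (gau 0 1 (rX P Y (x, 0)) * S.sX (rX P Y) (x, 0))) ∂S.mu 0 =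
      ENNReal.ofReal ((P.geo.actC w Y).re / (4 * Real.pi)) := by
  have hp : 0 < 4 * Real.pi := by positivity
  have hn : ∀ x, 0 ≤ z x * (gau 0 1 (rX P Y (x, 0)) * S.sX (rX P Y) (x, 0)) := fun x =>
    mul_nonneg (h0 x) (mul_nonneg (by unfold gau; positivity) (Mv.sX_nonneg _))
  have h1 := (integrable_const_mul_iff hp.ne'.isUnit _).1 ((integrable_iff (g := fun x =>
    4 * Real.pi * (z x * (gau 0 1 (rX P Y (x, 0)) * S.sX (rX P Y) (x, 0)))) (lag_eq hY hw)).1 hi)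
  rw [act_eq hY hw, Complex.ofReal_re, mul_div_cancel_left₀ _ hp.ne']
  exact ⟨mul_nonneg hp.le (integral_nonneg hn),
    (ofReal_integral_eq_lintegral_ofReal h1 (.of_forall hn)).symm⟩

end Int

theorem core_of_zeta {e : Ends S} {a b : ℝ} (hab : a < b) {x : E}
    (hz : zeta e a b x ≠ 0) : (x, (0 : ℝ)) ∈ Fm.Core e b :=
  fun _ hj => hz (zeta_zero (p := (x, 0)) hab hj)

/-- the constraints -/
theorem pair_of {a b : ℝ} (hab : a < b) (hu : Re P u)
    (hT : ∀ j c d, (T j c d).im = 0)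
    (hs : ∀ p : S.sl 0, ((p : E), (0 : ℝ)) ∈ Fm.Core P.e b → Sees D u T g p)
    (hφ : ∀ i (p : S.sl 0), (D.φ i).1 p ≠ 0 → zeta P.e a b p = 1) (h0 : ∀ i, ∀ x ∈ S.sl 0, g i x = 0)
    (i : κ) : ∫ x, zeta P.e a b x * (gau 0 1 (rX P (D.Xh u T) (x, 0)) * g i (rX P (D.Xh u T) (x, 0)) *
      S.sX (rX P (D.Xh u T)) (x, 0)) ∂S.mu 0 = ∫ x, gau 0 1 x * g i x ∂S.mu 0 +
        (P.geo.actC (u * P.geo.oR (D.φ i)) (D.Xh u T)).re / (4 * Real.pi) := by
  have hp : 0 < 4 * Real.pi := by positivity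
  have e1 : ∫ x, gau 0 1 x * g i x ∂S.mu 0 = 0 := integral_eq_zero_of_ae
    ((ae_restrict_mem (FV.meas_sl P.shr.reg 0)).mono fun x hx => by simp only [h0 i x hx, mul_zero]; rfl)
  rw [e1, zero_add, act_eq (re_Xh D hT hu)
    (z := fun x => zeta P.e a b x * g i (rX P (D.Xh u T) (x, 0))) fun p => ?_,
    Complex.ofReal_re, mul_div_cancel_left₀ _ hp.ne']
  · exact integral_congr_ae (.of_forall fun x => by ring)
  · change u.1 p * ((D.φ i).1 p : ℂ) = _
    by_cases hz : zeta P.e a b p = 0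
    · have : (D.φ i).1 p = 0 := by_contra fun k => by simp [hφ i p k] at hz
      simp [hz, this]
    · rw [((hs p (core_of_zeta hab hz)).val i).self_of_nhds p.2, lf_apply, hu.eq p 0]
      by_cases k : (D.φ i).1 p = 0
      · simp [k]
      · simp [hφ i p k]

/-! ### matching -/

/-- the rotation matrices -/
def rotT (P : Prm S) (β : Fin P.e.p → Fin 2 → ℂ) : Mt (Fin P.e.p) :=
  fun j => Ro.TT (Cj.fQ (P.e.Q j)) (β j)

theorem rotT_im {β : Fin P.e.p → Fin 2 → ℂ} (hβ : ∀ j l, (β j l).im = 0) (j : Fin P.e.p)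
    (c d : Fin 3) : (rotT P β j c d).im = 0 := by
  have e : star (β j) = β j := funext fun l => Complex.conj_eq_iff_im.2 (hβ j l)
  have := Ro.TT_conj (Ro.fQ_conj (P.e.Q j)) (β j) c d
  rw [e] at this
  exact Complex.conj_eq_iff_im.1 this.symm



end Crest.Agent.N250.Rp

end
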